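import Vale.Agent.P154H.NegAll

open Filter Topology

namespace Vale.Agent.Results.P154.PottsNeg5

/-- Nonreconstruction for the three-state Potts channel with negative eigenvalue on the rooted
`d`-ary tree: for every integer `d ≥ 5` and every `λ ≤ 0` with `d λ² ≤ 1`, the reconstruction
error tends to `0`. -/
theorem result : ∀ d : ℕ, 5 ≤ d → ∀ lam : ℝ, lam ≤ 0 → (d : ℝ) * lam ^ 2 ≤ 1 →
    Tendsto (Vale.Agent.P154.reconError 3 d lam) atTop (𝓝 0) :=
  Vale.Agent.P154H.regular_neg_five

end Vale.Agent.Results.P154.PottsNeg5
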