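import Vale.Agent.Results.P154.PottsThreeNonreconD9
import Vale.Agent.P154.Final

open Filter Topology

namespace Vale.Agent.Results.P154.PottsThreeAllD9

/-- Nonreconstruction for the three-state Potts channel: on rooted `d`-ary trees for `λ ≥ 0`,
`d ≥ 9` and for `λ ≤ 0`, `d ≥ 42`; on Galton-Watson trees, with any offspring law of full support
of mean `d`, in particular the Poisson law of mean `d`, for `λ ≥ 0`, `d ≥ 15/2` and for `λ ≤ 0`,
`d ≥ 42`, in all cases when `d λ² ≤ 1`.  The last part says that the series defining the error on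
a Galton-Watson tree converges. -/
theorem result :
    (∀ d : ℕ, 9 ≤ d → ∀ lam : ℝ, 0 ≤ lam → (d : ℝ) * lam ^ 2 ≤ 1 →
      Tendsto (Vale.Agent.P154.reconError 3 d lam) atTop (𝓝 0)) ∧
    (∀ d : ℕ, 42 ≤ d → ∀ lam : ℝ, lam ≤ 0 → (d : ℝ) * lam ^ 2 ≤ 1 →
      Tendsto (Vale.Agent.P154.reconError 3 d lam) atTop (𝓝 0)) ∧
    (∀ d : ℝ, 15 / 2 ≤ d → ∀ lam : ℝ, 0 ≤ lam → d * lam ^ 2 ≤ 1 →
      Tendsto (Vale.Agent.P154.gwError 3 (Vale.Agent.P154.poissonOff d) lam) atTop (𝓝 0)) ∧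
    (∀ d : ℝ, 42 ≤ d → ∀ lam : ℝ, lam ≤ 0 → d * lam ^ 2 ≤ 1 →
      Tendsto (Vale.Agent.P154.gwError 3 (Vale.Agent.P154.poissonOff d) lam) atTop (𝓝 0)) ∧
    (∀ off : ℕ → ℝ, (∀ N, 0 < off N) → HasSum off 1 → ∀ d : ℝ, 15 / 2 ≤ d →
      HasSum (fun N : ℕ => off N * (N : ℝ)) d → ∀ lam : ℝ, 0 ≤ lam → d * lam ^ 2 ≤ 1 →
        Tendsto (Vale.Agent.P154.gwError 3 off lam) atTop (𝓝 0)) ∧
    (∀ off : ℕ → ℝ, (∀ N, 0 < off N) → HasSum off 1 → ∀ d : ℝ, 42 ≤ d →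
      HasSum (fun N : ℕ => off N * (N : ℝ)) d → ∀ lam : ℝ, lam ≤ 0 → d * lam ^ 2 ≤ 1 →
        Tendsto (Vale.Agent.P154.gwError 3 off lam) atTop (𝓝 0)) ∧
    (∀ (off : ℕ → ℝ) (lam : ℝ), (∀ N, 0 < off N) → HasSum off 1 → -(1 / 2) < lam → lam < 1 → ∀ n : ℕ,
      Summable fun ω : Vale.Agent.P154.Obs 3 n => Vale.Agent.P154.gwProb 3 off lam n ω *
        ((1 / 2 : ℝ) * ∑ i : Fin 3, |Vale.Agent.P154.gwJoint 3 off lam n i ω /
          Vale.Agent.P154.gwProb 3 off lam n ω - 1 / ((3 : ℕ) : ℝ)|)) := by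
  refine ⟨PottsThreeNonreconD9.result, Vale.Agent.P154.regular_neg, ?_, ?_,
    fun off hoff hsum d hd hm lam h0 hdl => Vale.Agent.P154.gw_pos hoff hsum d hd hm lam h0 hdl,
    fun off hoff hsum d hd hm lam h0 hdl => Vale.Agent.P154.gw_neg hoff hsum d hd hm lam h0 hdl,
    fun off lam hoff hsum h0 h1 n => Vale.Agent.P154.gwError_summable hoff hsum h0 h1 n⟩
  · intro d hd lam h0 hdl
    have hdpos : 0 < d := by linarith
    exact Vale.Agent.P154.gw_pos (fun N => Vale.Agent.P154.poissonOff_pos hdpos N)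
      (Vale.Agent.P154.poissonOff_hasSum d) d hd (Vale.Agent.P154.poissonOff_mean d) lam h0 hdl
  · intro d hd lam h0 hdl
    have hdpos : 0 < d := by linarith
    exact Vale.Agent.P154.gw_neg (fun N => Vale.Agent.P154.poissonOff_pos hdpos N)
      (Vale.Agent.P154.poissonOff_hasSum d) d hd (Vale.Agent.P154.poissonOff_mean d) lam h0 hdl

end Vale.Agent.Results.P154.PottsThreeAllD9
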