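import Vale.Agent.Results.P154.PottsThreeNonreconD9
import Vale.Agent.P154.D8.Chain

open Filter Topology

namespace Vale.Agent.Results.P154.PottsThreeNonreconD8

/-- For `d ≥ 8` children per vertex and every `λ ≥ 0` with `d λ² ≤ 1`, the three-state Potts
channel on the rooted `d`-ary tree has nonreconstruction: the reconstruction error tends to `0`. -/
theorem result (d : ℕ) (hd : 8 ≤ d) (lam : ℝ) (h0 : 0 ≤ lam) (hdl : (d : ℝ) * lam ^ 2 ≤ 1) :
    Tendsto (Vale.Agent.P154.reconError 3 d lam) atTop (𝓝 0) := by
  rcases Nat.eq_or_lt_of_le hd with h | h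
  · subst h
    exact Vale.Agent.P154.D8.nonrecon lam h0 hdl
  · exact PottsThreeNonreconD9.result d h lam h0 hdl

end Vale.Agent.Results.P154.PottsThreeNonreconD8
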