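import Vale.Agent.P154.I9.Main

open Filter Topology

namespace Vale.Agent.Results.P154.PottsThreeNonreconD9

/-- For `d ≥ 9` children per vertex and every `λ ≥ 0` with `d λ² ≤ 1`, the three-state Potts
channel on the rooted `d`-ary tree has nonreconstruction: the reconstruction error tends to `0`. -/
theorem result (d : ℕ) (hd : 9 ≤ d) (lam : ℝ) (h0 : 0 ≤ lam) (hdl : (d : ℝ) * lam ^ 2 ≤ 1) :
    Tendsto (Vale.Agent.P154.reconError 3 d lam) atTop (𝓝 0) := by
  have hd' : (9 : ℝ) ≤ d := by exact_mod_cast hd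
  have hl : lam ≤ Vale.Agent.P154.I9.S.lam := by
    rw [Vale.Agent.P154.I9.lam_eq]
    have : 9 * lam ^ 2 ≤ 1 := by nlinarith [sq_nonneg lam]
    nlinarith
  refine Vale.Agent.P154.nonrecon_of_stat Vale.Agent.P154.I9.hS ?_ ?_ ?_ d (by omega) lam h0 hl hdl
  · show (0 : ℝ) < (897 / 2000 : ℝ)
    norm_num
  · show (0 : ℝ) < (517 / 200 : ℝ)
    norm_num
  · show 9 * (-9471 / 5000 : ℝ) ^ 2 < 32 * (897 / 2000 : ℝ) * (517 / 200 : ℝ)
    norm_num

end Vale.Agent.Results.P154.PottsThreeNonreconD9
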